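import Mathlib

namespace Vale.Agent.Results.P308.BoundedIndep

open Finset

set_option linter.unusedSectionVars false
set_option linter.unusedSimpArgs false
set_option linter.unnecessarySeqFocus false

variable {V : Type*} [Fintype V] [DecidableEq V] {G : SimpleGraph V}

/-- partner function of a perfect matching -/
structure PM (G : SimpleGraph V) (p : V → V) : Prop where
  adj : ∀ w, G.Adj w (p w)
  inv : ∀ w, p (p w) = w

/-- partner function of a near-perfect matching with holes `u`, `v` (holes are fixed points) -/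
structure NPM (G : SimpleGraph V) (m : V → V) (u v : V) : Prop where
  ne : u ≠ v
  fu : m u = u
  fv : m v = v
  adj : ∀ w, w ≠ u → w ≠ v → G.Adj w (m w)
  inv : ∀ w, m (m w) = w

/-- the alternating walk starting at the hole `u` -/
def walk (p m : V → V) (u : V) : ℕ → V
  | 0 => u
  | n + 1 => if n % 2 = 0 then p (walk p m u n) else m (walk p m u n)

lemma walk_odd (p m : V → V) (u : V) (t : ℕ) :
    walk p m u (2 * t + 1) = p (walk p m u (2 * t)) := by
  have : (2 * t) % 2 = 0 := by omega
  simp [walk, this]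

lemma walk_even (p m : V → V) (u : V) (t : ℕ) :
    walk p m u (2 * t + 2) = m (walk p m u (2 * t + 1)) := by
  have : (2 * t + 1) % 2 ≠ 0 := by omega
  show walk p m u ((2 * t + 1) + 1) = _
  simp [walk, this]

lemma PM.injective {p : V → V} (hp : PM G p) : Function.Injective p := by
  intro a b h
  rw [← hp.inv a, ← hp.inv b, h]

lemma NPM.injective {m : V → V} {u v : V} (hm : NPM G m u v) : Function.Injective m := by
  intro a b h
  rw [← hm.inv a, ← hm.inv b, h]

lemma NPM.fixed {m : V → V} {u v : V} (hm : NPM G m u v) {w : V} (h : m w = w) : w = u ∨ w = v := by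
  by_contra hcon
  push Not at hcon
  exact (hm.adj w hcon.1 hcon.2).ne h.symm

/-- The walk reaches the other hole `v` at an odd time `2L+1`, and is injective up to that time. -/
lemma exists_hit {p m : V → V} {u v : V} (hp : PM G p) (hm : NPM G m u v) :
    ∃ L, walk p m u (2 * L + 1) = v ∧
      ∀ i j, i ≤ 2 * L + 1 → j ≤ 2 * L + 1 → walk p m u i = walk p m u j → i = j := by
  classical
  set z := walk p m u with hz
  -- some repetition exists
  have hrep : ∃ b, ∃ a, a < b ∧ z a = z b := by
    obtain ⟨a, b, hab, h⟩ := Finite.exists_ne_map_eq_of_infinite z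
    rcases lt_or_gt_of_ne hab with h' | h'
    · exact ⟨b, a, h', h⟩
    · exact ⟨a, b, h', h.symm⟩
  let b := Nat.find hrep
  obtain ⟨a, hab, hzab⟩ : ∃ a, a < b ∧ z a = z b := Nat.find_spec hrep
  have hdist : ∀ i j, i < j → j < b → z i ≠ z j := by
    intro i j hij hjb h
    exact Nat.find_min hrep hjb ⟨i, hij, h⟩
  have hdist' : ∀ i j, i < b → j < b → z i = z j → i = j := by
    intro i j hi hj h
    by_contra hne
    rcases lt_or_gt_of_ne hne with h' | h'
    · exact hdist i j h' hj h
    · exact hdist j i h' hi h.symm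
  rcases Nat.even_or_odd' b with ⟨s, hb | hb⟩
  · -- b even
    obtain ⟨s', rfl⟩ : ∃ s', s = s' + 1 := ⟨s - 1, by omega⟩
    have hzb : z b = m (z (2 * s' + 1)) := by
      rw [hb]; exact walk_even p m u s'
    rcases Nat.even_or_odd' a with ⟨r, ha | ha⟩
    · rcases Nat.eq_zero_or_pos r with hr | hr
      · -- a = 0
        exfalso
        have h0 : z a = u := by rw [ha, hr]; rfl
        have h1 : z (2 * s' + 1) = u := by
          have : m (z (2 * s' + 1)) = m u := by rw [← hzb, ← hzab, h0, hm.fu]
          exact hm.injective this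
        have : (2 * s' + 1) = 0 := hdist' _ _ (by omega) (by omega) (by rw [h1]; rfl)
        omega
      · exfalso
        obtain ⟨r', rfl⟩ : ∃ r', r = r' + 1 := ⟨r - 1, by omega⟩
        have hza : z a = m (z (2 * r' + 1)) := by
          rw [ha]; exact walk_even p m u r'
        have := hm.injective (hza.symm.trans (hzab.trans hzb))
        have := hdist' _ _ (by omega) (by omega) this
        omega
    · -- a odd
      have h1 : m (z a) = z (2 * s' + 1) := by rw [hzab, hzb, hm.inv]
      by_cases hrs : r = s'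
      · subst hrs
        have hfix : m (z (2 * r + 1)) = z (2 * r + 1) := by
          have h1' := h1
          rw [ha] at h1'
          exact h1'
        rcases hm.fixed hfix with h | h
        · exfalso
          have : (2 * r + 1) = 0 := hdist' _ _ (by omega) (by omega) (by rw [h]; rfl)
          omega
        · refine ⟨r, h, ?_⟩
          intro i j hi hj hij
          exact hdist' i j (by omega) (by omega) hij
      · exfalso
        have h2 : z (2 * r + 2) = z (2 * s' + 1) := by
          rw [← h1, ha]; exact walk_even p m u r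
        have := hdist' _ _ (by omega) (by omega) h2
        omega
  · -- b odd
    exfalso
    have hzb : z b = p (z (2 * s)) := by
      rw [hb]; exact walk_odd p m u s
    rcases Nat.even_or_odd' a with ⟨r, ha | ha⟩
    · have h1 : p (z a) = z (2 * s) := by rw [hzab, hzb, hp.inv]
      by_cases hrs : r = s
      · subst hrs
        rw [ha] at h1
        exact (hp.adj (z (2 * r))).ne h1.symm
      · have h2 : z (2 * r + 1) = z (2 * s) := by
          rw [← h1, ha]; exact walk_odd p m u r
        have := hdist' _ _ (by omega) (by omega) h2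
        omega
    · have hza : z a = p (z (2 * r)) := by
        rw [ha]; exact walk_odd p m u r
      have := hp.injective (hza.symm.trans (hzab.trans hzb))
      have := hdist' _ _ (by omega) (by omega) this
      omega


/-- number of vertices at which two partner functions differ -/
def dist (p m : V → V) : ℕ := (univ.filter (fun w => p w ≠ m w)).card

/-- General gluing: replace `p` on a `p`-invariant vertex set `W` by another fixed-point-free
adjacent involution `q` of `W`. -/
lemma PM.glue {p q : V → V} (hp : PM G p) (W : Finset V) (hpW : ∀ w ∈ W, p w ∈ W)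
    (hqW : ∀ w ∈ W, q w ∈ W) (hqadj : ∀ w ∈ W, G.Adj w (q w)) (hqinv : ∀ w ∈ W, q (q w) = w) :
    PM G (fun w => if w ∈ W then q w else p w) := by
  have hpW' : ∀ w, w ∉ W → p w ∉ W := by
    intro w hw hpw
    exact hw (by simpa [hp.inv] using hpW _ hpw)
  constructor
  · intro w
    by_cases hw : w ∈ W
    · simp only [hw, if_true]; exact hqadj w hw
    · simp only [hw, if_false]; exact hp.adj w
  · intro w
    by_cases hw : w ∈ W
    · simp only [hw, if_true, hqW w hw, hqinv w hw]
    · simp only [hw, if_false, hpW' w hw, hp.inv]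

section path

variable {p m : V → V} {u v : V} {L : ℕ}

/-- basic facts on the alternating path -/
lemma m_walk_even_succ (hm : NPM G m u v) (t : ℕ) :
    m (walk p m u (2 * t + 2)) = walk p m u (2 * t + 1) := by
  rw [walk_even, hm.inv]

lemma p_walk_odd (hp : PM G p) (t : ℕ) :
    p (walk p m u (2 * t + 1)) = walk p m u (2 * t) := by
  rw [walk_odd, hp.inv]

/-- along the path, `p` and `m` differ -/
lemma p_ne_m_on_path (hp : PM G p) (hm : NPM G m u v)
    (hv : walk p m u (2 * L + 1) = v)
    (hinj : ∀ i j, i ≤ 2 * L + 1 → j ≤ 2 * L + 1 → walk p m u i = walk p m u j → i = j)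
    (i : ℕ) (hi : i ≤ 2 * L + 1) : p (walk p m u i) ≠ m (walk p m u i) := by
  intro h
  rcases Nat.even_or_odd' i with ⟨t, rfl | rfl⟩
  · rw [← walk_odd p m u t] at h
    rcases Nat.eq_zero_or_pos t with rfl | ht
    · have h0 : m (walk p m u (2 * 0)) = walk p m u 0 := hm.fu
      rw [h0] at h
      have := hinj _ _ (by omega) (by omega) h
      omega
    · obtain ⟨t', rfl⟩ : ∃ t', t = t' + 1 := ⟨t - 1, by omega⟩
      have h1 : m (walk p m u (2 * (t' + 1))) = walk p m u (2 * t' + 1) := m_walk_even_succ hm t'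
      rw [h1] at h
      have := hinj _ _ (by omega) (by omega) h
      omega
  · rw [p_walk_odd hp] at h
    by_cases htL : t = L
    · subst htL
      rw [hv, hm.fv, ← hv] at h
      have := hinj _ _ (by omega) (by omega) h
      omega
    · rw [← walk_even p m u t] at h
      have := hinj _ _ (by omega) (by omega) h
      omega


lemma p_path_mem (hp : PM G p) (i : ℕ) (hi : i ≤ 2 * L + 1) :
    ∃ j, j ≤ 2 * L + 1 ∧ p (walk p m u i) = walk p m u j := by
  rcases Nat.even_or_odd' i with ⟨t, rfl | rfl⟩
  · exact ⟨2 * t + 1, by omega, (walk_odd p m u t).symm⟩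
  · exact ⟨2 * t, by omega, p_walk_odd hp t⟩

lemma m_path_mem (hm : NPM G m u v) (hv : walk p m u (2 * L + 1) = v) (i : ℕ)
    (hi : i ≤ 2 * L + 1) : ∃ j, j ≤ 2 * L + 1 ∧ m (walk p m u i) = walk p m u j := by
  rcases Nat.even_or_odd' i with ⟨t, rfl | rfl⟩
  · rcases Nat.eq_zero_or_pos t with rfl | ht
    · exact ⟨0, by omega, hm.fu⟩
    · obtain ⟨t', rfl⟩ : ∃ t', t = t' + 1 := ⟨t - 1, by omega⟩
      exact ⟨2 * t' + 1, by omega, m_walk_even_succ hm t'⟩
  · by_cases htL : t = L
    · subst htL
      exact ⟨2 * t + 1, le_rfl, by rw [hv, hm.fv]⟩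
    · exact ⟨2 * t + 2, by omega, (walk_even p m u t).symm⟩

/-- If `p` is a closest perfect matching to `m`, they differ only along the alternating path. -/
lemma dist_le_of_minimal (hp : PM G p) (hm : NPM G m u v)
    (hv : walk p m u (2 * L + 1) = v)
    (hmin : ∀ p', PM G p' → dist p m ≤ dist p' m) : dist p m ≤ 2 * L + 2 := by
  set z := walk p m u with hz
  let W : Finset V := (range (2 * L + 2)).image z
  have hWmem : ∀ w, w ∈ W ↔ ∃ i, i ≤ 2 * L + 1 ∧ z i = w := by
    intro w
    simp only [W, mem_image, mem_range]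
    constructor
    · rintro ⟨i, hi, rfl⟩; exact ⟨i, by omega, rfl⟩
    · rintro ⟨i, hi, rfl⟩; exact ⟨i, by omega, rfl⟩
  have hpW : ∀ w ∈ W, p w ∈ W := by
    intro w hw
    obtain ⟨i, hi, rfl⟩ := (hWmem w).1 hw
    obtain ⟨j, hj, h⟩ := p_path_mem (m := m) (u := u) (L := L) hp i hi
    exact (hWmem _).2 ⟨j, hj, h.symm⟩
  have hmW : ∀ w ∈ W, m w ∈ W := by
    intro w hw
    obtain ⟨i, hi, rfl⟩ := (hWmem w).1 hw
    obtain ⟨j, hj, h⟩ := m_path_mem hm hv i hi
    exact (hWmem _).2 ⟨j, hj, h.symm⟩
  have huW : u ∈ W := (hWmem u).2 ⟨0, by omega, rfl⟩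
  have hvW : v ∈ W := (hWmem v).2 ⟨2 * L + 1, le_rfl, hv⟩
  have hglue := hp.glue (q := m) (Wᶜ)
    (by
      intro w hw
      rw [mem_compl] at hw ⊢
      intro h
      exact hw (by simpa [hp.inv] using hpW _ h))
    (by
      intro w hw
      rw [mem_compl] at hw ⊢
      intro h
      exact hw (by simpa [hm.inv] using hmW _ h))
    (by
      intro w hw
      rw [mem_compl] at hw
      exact hm.adj w (fun h => hw (h ▸ huW)) (fun h => hw (h ▸ hvW)))
    (fun w _ => hm.inv w)
  refine (hmin _ hglue).trans ?_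
  calc dist (fun w => if w ∈ Wᶜ then m w else p w) m ≤ W.card := by
        apply card_le_card
        intro w hw
        rw [mem_filter] at hw
        by_contra hwW
        exact hw.2 (by simp [hwW])
    _ ≤ (range (2 * L + 2)).card := card_image_le
    _ = 2 * L + 2 := card_range _

/-- the index involution describing the shortcut -/
def sig (a c e i : ℕ) : ℕ :=
  if i = 2 * a then 2 * c else if i = 2 * c then 2 * a else if i + 1 = 2 * c then 2 * e + 1
  else if i = 2 * e + 1 then 2 * c - 1 else if i % 2 = 1 then i + 1 else i - 1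

lemma sig_mem {a c e i : ℕ} (hac : a < c) (hce : c ≤ e) (h1 : 2 * a ≤ i) (h2 : i ≤ 2 * e + 1) :
    2 * a ≤ sig a c e i ∧ sig a c e i ≤ 2 * e + 1 := by
  unfold sig
  split_ifs <;> omega

lemma sig_sig {a c e i : ℕ} (hac : a < c) (hce : c ≤ e) (h1 : 2 * a ≤ i) (h2 : i ≤ 2 * e + 1) :
    sig a c e (sig a c e i) = i := by
  unfold sig
  split_ifs <;> omega

/-- The shortcut: it produces a perfect matching strictly closer to `m`. -/
lemma shortcut (hp : PM G p) (hm : NPM G m u v)
    (hv : walk p m u (2 * L + 1) = v)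
    (hinj : ∀ i j, i ≤ 2 * L + 1 → j ≤ 2 * L + 1 → walk p m u i = walk p m u j → i = j)
    {a c e : ℕ} (hac : a < c) (hce : c ≤ e) (heL : e ≤ L) (hae : a + 2 ≤ e)
    (hA : G.Adj (walk p m u (2 * a)) (walk p m u (2 * c)))
    (hB : G.Adj (walk p m u (2 * c - 1)) (walk p m u (2 * e + 1))) :
    ∃ p', PM G p' ∧ dist p' m < dist p m := by
  classical
  set z := walk p m u with hz
  let Seg : Finset V := (Icc (2 * a) (2 * e + 1)).image z
  have hSegmem : ∀ w, w ∈ Seg ↔ ∃ i, 2 * a ≤ i ∧ i ≤ 2 * e + 1 ∧ z i = w := by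
    intro w
    simp only [Seg, mem_image, mem_Icc]
    constructor
    · rintro ⟨i, hi, rfl⟩; exact ⟨i, hi.1, hi.2, rfl⟩
    · rintro ⟨i, hi1, hi2, rfl⟩; exact ⟨i, ⟨hi1, hi2⟩, rfl⟩
  let q : V → V := fun w =>
    if h : ∃ i, 2 * a ≤ i ∧ i ≤ 2 * e + 1 ∧ z i = w then z (sig a c e h.choose) else w
  have hq : ∀ i, 2 * a ≤ i → i ≤ 2 * e + 1 → q (z i) = z (sig a c e i) := by
    intro i h1 h2
    have h : ∃ j, 2 * a ≤ j ∧ j ≤ 2 * e + 1 ∧ z j = z i := ⟨i, h1, h2, rfl⟩
    have hch := h.choose_spec
    have : h.choose = i := hinj _ _ (by omega) (by omega) hch.2.2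
    simp only [q, dif_pos h, this]
  -- on non-special indices, `q = m`
  have hqm : ∀ i, 2 * a ≤ i → i ≤ 2 * e + 1 → i ≠ 2 * a → i ≠ 2 * c → i + 1 ≠ 2 * c →
      i ≠ 2 * e + 1 → z (sig a c e i) = m (z i) := by
    intro i h1 h2 n1 n2 n3 n4
    rcases Nat.even_or_odd' i with ⟨t, rfl | rfl⟩
    · obtain ⟨t', rfl⟩ : ∃ t', t = t' + 1 := ⟨t - 1, by omega⟩
      have : sig a c e (2 * (t' + 1)) = 2 * t' + 1 := by
        unfold sig; split_ifs <;> omega
      rw [this]
      exact (m_walk_even_succ hm t').symm
    · have : sig a c e (2 * t + 1) = 2 * t + 2 := by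
        unfold sig; split_ifs <;> omega
      rw [this]
      exact walk_even p m u t
  have hz0 : z 0 = u := rfl
  have hglue := hp.glue (q := q) Seg
    (by
      intro w hw
      obtain ⟨i, h1, h2, rfl⟩ := (hSegmem w).1 hw
      rw [hSegmem]
      rcases Nat.even_or_odd' i with ⟨t, rfl | rfl⟩
      · exact ⟨2 * t + 1, by omega, by omega, walk_odd p m u t⟩
      · exact ⟨2 * t, by omega, by omega, (p_walk_odd hp t).symm⟩)
    (by
      intro w hw
      obtain ⟨i, h1, h2, rfl⟩ := (hSegmem w).1 hw
      rw [hq i h1 h2, hSegmem]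
      exact ⟨_, (sig_mem hac hce h1 h2).1, (sig_mem hac hce h1 h2).2, rfl⟩)
    (by
      intro w hw
      obtain ⟨i, h1, h2, rfl⟩ := (hSegmem w).1 hw
      rw [hq i h1 h2]
      by_cases n1 : i = 2 * a
      · have : sig a c e i = 2 * c := by unfold sig; split_ifs <;> omega
        rw [this, n1]; exact hA
      by_cases n2 : i = 2 * c
      · have : sig a c e i = 2 * a := by unfold sig; split_ifs <;> omega
        rw [this, n2]; exact hA.symm
      by_cases n3 : i + 1 = 2 * c
      · have : sig a c e i = 2 * e + 1 := by unfold sig; split_ifs <;> omega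
        have hi : i = 2 * c - 1 := by omega
        rw [this, hi]; exact hB
      by_cases n4 : i = 2 * e + 1
      · have : sig a c e i = 2 * c - 1 := by unfold sig; split_ifs <;> omega
        rw [this, n4]; exact hB.symm
      rw [hqm i h1 h2 n1 n2 n3 n4]
      apply hm.adj
      · intro h
        have := hinj i 0 (by omega) (by omega) (h.trans hz0.symm)
        omega
      · intro h
        have := hinj i (2 * L + 1) (by omega) (by omega) (h.trans hv.symm)
        omega)
    (by
      intro w hw
      obtain ⟨i, h1, h2, rfl⟩ := (hSegmem w).1 hw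
      rw [hq i h1 h2, hq _ (sig_mem hac hce h1 h2).1 (sig_mem hac hce h1 h2).2,
        sig_sig hac hce h1 h2])
  refine ⟨_, hglue, ?_⟩
  let S4 : Finset V := {z (2 * a), z (2 * c), z (2 * c - 1), z (2 * e + 1)}
  have hSegsub : Seg ⊆ univ.filter (fun w => p w ≠ m w) := by
    intro w hw
    obtain ⟨i, h1, h2, rfl⟩ := (hSegmem w).1 hw
    rw [mem_filter]
    exact ⟨mem_univ _, p_ne_m_on_path hp hm hv hinj i (by omega)⟩
  have hSegcard : Seg.card = 2 * e + 2 - 2 * a := by
    rw [card_image_of_injOn, Nat.card_Icc]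
    intro i hi j hj hij
    rw [coe_Icc, Set.mem_Icc] at hi hj
    exact hinj i j (by omega) (by omega) hij
  have hsub : univ.filter (fun w => (if w ∈ Seg then q w else p w) ≠ m w) ⊆
      (univ.filter (fun w => p w ≠ m w) \ Seg) ∪ S4 := by
    intro w hw
    rw [mem_filter] at hw
    rw [mem_union, mem_sdiff, mem_filter]
    by_cases hwS : w ∈ Seg
    · right
      obtain ⟨i, h1, h2, rfl⟩ := (hSegmem w).1 hwS
      have hne := hw.2
      simp only [hwS, if_true] at hne
      rw [hq i h1 h2] at hne
      simp only [S4, mem_insert, mem_singleton]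
      by_contra hcon
      push Not at hcon
      apply hne
      apply hqm i h1 h2
      · rintro rfl; exact hcon.1 rfl
      · rintro rfl; exact hcon.2.1 rfl
      · intro h
        have hi : i = 2 * c - 1 := by omega
        exact hcon.2.2.1 (by rw [hi])
      · rintro rfl; exact hcon.2.2.2 rfl
    · left
      have hne := hw.2
      simp only [hwS, if_false] at hne
      exact ⟨⟨mem_univ _, hne⟩, hwS⟩
  have hS4 : S4.card ≤ 4 := card_le_four
  calc dist (fun w => if w ∈ Seg then q w else p w) m
      ≤ ((univ.filter (fun w => p w ≠ m w) \ Seg) ∪ S4).card := card_le_card hsub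
    _ ≤ (univ.filter (fun w => p w ≠ m w) \ Seg).card + S4.card := card_union_le _ _
    _ ≤ (dist p m - Seg.card) + 4 := by
        rw [card_sdiff_of_subset hSegsub]
        exact Nat.add_le_add_left hS4 _
    _ < dist p m := by
        have h1 : Seg.card ≤ dist p m := card_le_card hSegsub
        omega

end path

/-- **Closeness.**  If `G` has no independent set of more than `k` vertices and has a perfect matching,
then every near-perfect matching differs from some perfect matching at no more than `8k+4` vertices. -/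
lemma close {k : ℕ} (hα : ∀ I : Finset V, G.IsIndepSet (I : Set V) → I.card ≤ k)
    {m : V → V} {u v : V} (hm : NPM G m u v) (hex : ∃ p, PM G p) :
    ∃ p, PM G p ∧ dist p m ≤ 8 * k + 4 := by
  classical
  have hne : ∃ n, ∃ p, PM G p ∧ dist p m = n := by
    obtain ⟨p, hp⟩ := hex
    exact ⟨_, p, hp, rfl⟩
  obtain ⟨p, hp, hpn⟩ := Nat.find_spec hne
  have hmin : ∀ p', PM G p' → dist p m ≤ dist p' m := by
    intro p' hp'
    rw [hpn]
    exact Nat.find_min' hne ⟨p', hp', rfl⟩
  obtain ⟨L, hv, hinj⟩ := exists_hit hp hm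
  have hd := dist_le_of_minimal hp hm hv hmin
  refine ⟨p, hp, ?_⟩
  by_contra hbig
  have hL : 4 * k + 2 ≤ L := by omega
  set z := walk p m u with hz
  let T : Finset ℕ := Icc 1 (2 * k + 1)
  let J₁ : Finset ℕ := T.filter (fun s => ∀ s' ∈ T, s' < s → ¬ G.Adj (z (4 * s')) (z (4 * s)))
  let J₂ : Finset ℕ :=
    T.filter (fun s => ∀ s' ∈ T, s < s' → ¬ G.Adj (z (4 * s - 1)) (z (4 * s' - 1)))
  have hTmem : ∀ s, s ∈ T ↔ 1 ≤ s ∧ s ≤ 2 * k + 1 := fun s => mem_Icc
  have hJ₁ : J₁.card ≤ k := by
    have hinj1 : Set.InjOn (fun s => z (4 * s)) (J₁ : Set ℕ) := by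
      intro s hs s' hs' h
      have h1 := (hTmem s).1 (mem_filter.1 hs).1
      have h2 := (hTmem s').1 (mem_filter.1 hs').1
      have := hinj _ _ (by omega) (by omega) h
      omega
    rw [← card_image_of_injOn hinj1]
    apply hα
    intro x hx y hy hxy
    simp only [coe_image, Set.mem_image, mem_coe] at hx hy
    obtain ⟨s, hs, rfl⟩ := hx
    obtain ⟨s', hs', rfl⟩ := hy
    have hss : s ≠ s' := fun h => hxy (by rw [h])
    rcases lt_or_gt_of_ne hss with h | h
    · exact (mem_filter.1 hs').2 s (mem_filter.1 hs).1 h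
    · exact fun hadj => (mem_filter.1 hs).2 s' (mem_filter.1 hs').1 h hadj.symm
  have hJ₂ : J₂.card ≤ k := by
    have hinj2 : Set.InjOn (fun s => z (4 * s - 1)) (J₂ : Set ℕ) := by
      intro s hs s' hs' h
      have h1 := (hTmem s).1 (mem_filter.1 hs).1
      have h2 := (hTmem s').1 (mem_filter.1 hs').1
      have := hinj _ _ (by omega) (by omega) h
      omega
    rw [← card_image_of_injOn hinj2]
    apply hα
    intro x hx y hy hxy
    simp only [coe_image, Set.mem_image, mem_coe] at hx hy
    obtain ⟨s, hs, rfl⟩ := hx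
    obtain ⟨s', hs', rfl⟩ := hy
    have hss : s ≠ s' := fun h => hxy (by rw [h])
    rcases lt_or_gt_of_ne hss with h | h
    · exact (mem_filter.1 hs).2 s' (mem_filter.1 hs').1 h
    · exact fun hadj => (mem_filter.1 hs').2 s (mem_filter.1 hs).1 h hadj.symm
  have hTcard : T.card = 2 * k + 1 := by simp [T]
  obtain ⟨s, hsT, hsJ⟩ : ∃ s ∈ T, s ∉ J₁ ∪ J₂ := by
    by_contra hcon
    push Not at hcon
    have : T ⊆ J₁ ∪ J₂ := hcon
    have h1 := card_le_card this
    have h2 := card_union_le J₁ J₂
    omega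
  rw [mem_union, not_or] at hsJ
  have h1 : ∃ s' ∈ T, s' < s ∧ G.Adj (z (4 * s')) (z (4 * s)) := by
    by_contra hcon
    push Not at hcon
    exact hsJ.1 (mem_filter.2 ⟨hsT, hcon⟩)
  have h2 : ∃ s' ∈ T, s < s' ∧ G.Adj (z (4 * s - 1)) (z (4 * s' - 1)) := by
    by_contra hcon
    push Not at hcon
    exact hsJ.2 (mem_filter.2 ⟨hsT, hcon⟩)
  obtain ⟨s₁, hs₁T, hs₁, hA⟩ := h1
  obtain ⟨s₃, hs₃T, hs₃, hB⟩ := h2
  have b1 := (hTmem s₁).1 hs₁T
  have b3 := (hTmem s₃).1 hs₃T
  have e1 : 2 * (2 * s₁) = 4 * s₁ := by ring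
  have e2 : 2 * (2 * s) = 4 * s := by ring
  have e3 : 2 * (2 * s₃ - 1) + 1 = 4 * s₃ - 1 := by omega
  obtain ⟨p', hp', hlt⟩ := shortcut hp hm hv hinj (a := 2 * s₁) (c := 2 * s) (e := 2 * s₃ - 1)
    (by omega) (by omega) (by omega) (by omega) (by rw [e1, e2]; exact hA)
    (by rw [e2, e3]; exact hB)
  exact absurd (hmin p' hp') (not_le.2 hlt)

/-- reconstruct a partner function from `p` and a finite list of corrections -/
noncomputable def recon (p : V → V) (S : Finset (V × V)) : V → V := fun w =>
  if h : ∃ b, (w, b) ∈ S then h.choose else p w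

lemma recon_eq (p m : V → V) :
    recon p ((univ.filter (fun w => p w ≠ m w)).image (fun w => (w, m w))) = m := by
  funext w
  unfold recon
  by_cases hw : p w = m w
  · have : ¬ ∃ b, (w, b) ∈ (univ.filter (fun w => p w ≠ m w)).image (fun w => (w, m w)) := by
      rintro ⟨b, hb⟩
      obtain ⟨w', hw', heq⟩ := mem_image.1 hb
      have : w' = w := (Prod.ext_iff.1 heq).1
      subst this
      exact (mem_filter.1 hw').2 hw
    rw [dif_neg this, hw]
  · have h : ∃ b, (w, b) ∈ (univ.filter (fun w => p w ≠ m w)).image (fun w => (w, m w)) :=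
      ⟨m w, mem_image.2 ⟨w, mem_filter.2 ⟨mem_univ _, hw⟩, rfl⟩⟩
    rw [dif_pos h]
    obtain ⟨w', _, heq⟩ := mem_image.1 h.choose_spec
    have h1 : w' = w := (Prod.ext_iff.1 heq).1
    have h2 : m w' = h.choose := (Prod.ext_iff.1 heq).2
    rw [← h2, h1]

/-- counting in the language of partner functions -/
lemma count_fun {k : ℕ} (hα : ∀ I : Finset V, G.IsIndepSet (I : Set V) → I.card ≤ k)
    (hex : ∃ p, PM G p) :
    {m : V → V | ∃ u v, NPM G m u v}.ncard ≤
      (∑ i ∈ range (8 * k + 5), ((Fintype.card V) ^ 2).choose i) * {p : V → V | PM G p}.ncard := by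
  classical
  let Pf : Finset (V → V) := (Set.toFinite {p : V → V | PM G p}).toFinset
  let t : (V → V) → Finset (V → V) := fun p =>
    ((range (8 * k + 5)).biUnion (fun i => powersetCard i (univ : Finset (V × V)))).image (recon p)
  have hsub : {m : V → V | ∃ u v, NPM G m u v} ⊆ (↑(Pf.biUnion t) : Set (V → V)) := by
    rintro m ⟨u, v, hm⟩
    obtain ⟨p, hp, hd⟩ := close hα hm hex
    rw [mem_coe, mem_biUnion]
    refine ⟨p, by simpa [Pf] using hp, ?_⟩
    rw [mem_image]
    refine ⟨_, ?_, recon_eq p m⟩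
    rw [mem_biUnion]
    refine ⟨_, ?_, mem_powersetCard.2 ⟨subset_univ _, rfl⟩⟩
    rw [mem_range]
    have : ((univ.filter (fun w => p w ≠ m w)).image (fun w => (w, m w))).card ≤ dist p m :=
      card_image_le
    omega
  have hcardt : ∀ p ∈ Pf, (t p).card ≤ ∑ i ∈ range (8 * k + 5), ((Fintype.card V) ^ 2).choose i := by
    intro p _
    refine card_image_le.trans (card_biUnion_le.trans (le_of_eq ?_))
    refine sum_congr rfl fun i _ => ?_
    rw [card_powersetCard, card_univ, Fintype.card_prod, sq]
  calc _ ≤ (↑(Pf.biUnion t) : Set (V → V)).ncard := Set.ncard_le_ncard hsub (finite_toSet _)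
    _ = (Pf.biUnion t).card := Set.ncard_coe_finset _
    _ ≤ Pf.card * _ := card_biUnion_le_card_mul _ _ _ hcardt
    _ = _ := by rw [Set.ncard_eq_toFinset_card {p : V → V | PM G p}, mul_comm]


/-- partner function of a subgraph that is a matching (vertices not covered are fixed) -/
noncomputable def partner (M : G.Subgraph) (w : V) : V :=
  open Classical in if h : ∃ x, M.Adj w x then h.choose else w

lemma partner_adj {M : G.Subgraph} {w : V} (h : ∃ x, M.Adj w x) : M.Adj w (partner M w) := by
  unfold partner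
  rw [dif_pos h]
  exact h.choose_spec

lemma partner_eq {M : G.Subgraph} (hM : M.IsMatching) {a b : V} (h : M.Adj a b) :
    partner M a = b :=
  hM.eq_of_adj_left (partner_adj ⟨b, h⟩) h

lemma partner_of_not {M : G.Subgraph} {w : V} (h : ¬ ∃ x, M.Adj w x) : partner M w = w := by
  unfold partner
  rw [dif_neg h]

lemma adj_iff_partner {M : G.Subgraph} (hM : M.IsMatching) (a b : V) :
    M.Adj a b ↔ partner M a = b ∧ partner M a ≠ a := by
  constructor
  · intro h
    have := partner_eq hM h
    exact ⟨this, by rw [this]; exact (M.adj_sub h).ne.symm⟩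
  · rintro ⟨h1, h2⟩
    by_cases h : ∃ x, M.Adj a x
    · rw [← h1]; exact partner_adj h
    · exact absurd (partner_of_not h) h2

lemma mem_verts_iff_partner {M : G.Subgraph} (hM : M.IsMatching) (a : V) :
    a ∈ M.verts ↔ partner M a ≠ a := by
  constructor
  · intro h
    obtain ⟨x, hx, _⟩ := hM h
    exact ((adj_iff_partner hM a x).1 hx).2
  · intro h
    by_cases h' : ∃ x, M.Adj a x
    · obtain ⟨x, hx⟩ := h'
      exact M.edge_vert hx
    · exact absurd (partner_of_not h') h

lemma partner_injOn : Set.InjOn (partner (G := G)) {M | M.IsMatching} := by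
  intro M hM M' hM' h
  ext a b
  · rw [mem_verts_iff_partner hM, mem_verts_iff_partner hM', h]
  · rw [adj_iff_partner hM, adj_iff_partner hM', h]

lemma partner_inv {M : G.Subgraph} (hM : M.IsMatching) (w : V) :
    partner M (partner M w) = w := by
  by_cases h : ∃ x, M.Adj w x
  · exact partner_eq hM (partner_adj h).symm
  · rw [partner_of_not h, partner_of_not h]

lemma partner_npm {M : G.Subgraph} (hM : M.IsMatching) {u v : V} (huv : u ≠ v)
    (hverts : M.vertsᶜ = {u, v}) : NPM G (partner M) u v := by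
  have hmem : ∀ w, w ∈ M.verts ↔ w ≠ u ∧ w ≠ v := by
    intro w
    have : w ∈ M.vertsᶜ ↔ w = u ∨ w = v := by rw [hverts]; simp
    rw [Set.mem_compl_iff] at this
    constructor
    · intro h
      by_contra hcon
      exact (this.2 (by tauto)) h
    · intro h
      by_contra hcon
      rcases this.1 hcon with h' | h'
      · exact h.1 h'
      · exact h.2 h'
  refine ⟨huv, ?_, ?_, ?_, partner_inv hM⟩
  · by_contra h
    exact ((hmem u).1 ((mem_verts_iff_partner hM u).2 h)).1 rfl
  · by_contra h
    exact ((hmem v).1 ((mem_verts_iff_partner hM v).2 h)).2 rfl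
  · intro w h1 h2
    obtain ⟨x, hx, _⟩ := hM ((hmem w).2 ⟨h1, h2⟩)
    exact M.adj_sub (partner_adj ⟨x, hx⟩)

lemma partner_pm {M : G.Subgraph} (hM : M.IsPerfectMatching) : PM G (partner M) := by
  refine ⟨?_, partner_inv hM.1⟩
  intro w
  obtain ⟨x, hx, _⟩ := hM.1 (hM.2 w)
  exact M.adj_sub (partner_adj ⟨x, hx⟩)

/-- the spanning subgraph given by a fixed-point-free adjacent involution -/
def ofFun (p : V → V) (hp : PM G p) : G.Subgraph where
  verts := Set.univ
  Adj a b := p a = b
  adj_sub := by
    intro a b h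
    rw [← h]
    exact hp.adj a
  edge_vert := fun _ => Set.mem_univ _
  symm := ⟨by
    intro a b h
    show p b = a
    rw [← h, hp.inv]⟩

lemma ofFun_isPerfectMatching (p : V → V) (hp : PM G p) : (ofFun p hp).IsPerfectMatching := by
  rw [SimpleGraph.Subgraph.isPerfectMatching_iff]
  intro w
  exact ⟨p w, rfl, fun y hy => Eq.symm hy⟩

/-- **Main result.**  Let `G` be a finite simple graph with independence number at most `k` that has a
perfect matching.  Then the number of near-perfect matchings of `G` (matchings that leave exactly two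
vertices uncovered) is at most `∑_{i ≤ 8k+4} C(|V|², i)` times the number of perfect matchings. -/
theorem result {V : Type*} [Fintype V] (G : SimpleGraph V) (k : ℕ) (hα : G.indepNum ≤ k)
    (hex : ∃ P : G.Subgraph, P.IsPerfectMatching) :
    {M : G.Subgraph | M.IsMatching ∧ (M.vertsᶜ).ncard = 2}.ncard ≤
      (∑ i ∈ Finset.range (8 * k + 5), ((Fintype.card V) ^ 2).choose i) *
        {P : G.Subgraph | P.IsPerfectMatching}.ncard := by
  classical
  have hα' : ∀ I : Finset V, G.IsIndepSet (I : Set V) → I.card ≤ k :=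
    fun I hI => hI.card_le_indepNum.trans hα
  obtain ⟨P₀, hP₀⟩ := hex
  have h1 : {M : G.Subgraph | M.IsMatching ∧ (M.vertsᶜ).ncard = 2}.ncard ≤
      {m : V → V | ∃ u v, NPM G m u v}.ncard := by
    apply Set.ncard_le_ncard_of_injOn (partner (G := G))
    · rintro M ⟨hM, hc⟩
      obtain ⟨u, v, huv, hverts⟩ := Set.ncard_eq_two.1 hc
      exact ⟨u, v, partner_npm hM huv hverts⟩
    · exact partner_injOn.mono (fun M hM => hM.1)
  have h2 : {p : V → V | PM G p}.ncard ≤ {P : G.Subgraph | P.IsPerfectMatching}.ncard := by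
    apply Set.ncard_le_ncard_of_injOn
      (fun p => if hp : PM G p then ofFun p hp else P₀)
    · intro p hp
      have hp' : PM G p := hp
      simp only [dif_pos hp']
      exact ofFun_isPerfectMatching p hp'
    · intro p hp p' hp' h
      have hp1 : PM G p := hp
      have hp2 : PM G p' := hp'
      simp only [dif_pos hp1, dif_pos hp2] at h
      funext w
      have : (ofFun p hp1).Adj w (p w) := rfl
      rw [h] at this
      exact Eq.symm this
  calc _ ≤ {m : V → V | ∃ u v, NPM G m u v}.ncard := h1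
    _ ≤ _ := count_fun hα' ⟨partner P₀, partner_pm hP₀⟩
    _ ≤ _ := Nat.mul_le_mul_left _ h2

end Vale.Agent.Results.P308.BoundedIndep
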